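import Vale.Agent.P355.Dich.Main
import Vale.Agent.P355.Cert.CTBridge
import Vale.Agent.P355.Tao.Bridge

/-!
P355, assembly: in seven pairwise unbiased bases of `ℂ⁶` every transition matrix lies on the branch
of vanishing three-against-three sums, since the other branch of the dichotomy is Tao's matrix and
`Phi` is negative there. A certificate on the branch therefore leaves at most five bases.
-/

open scoped InnerProductSpace BigOperators ComplexConjugate
open Finset

namespace Vale.Agent.P355.Assembly

open Cert Cert.IdentCT Cert.ZeroTotal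

/-- a complete set has vanishing three-against-three sums in its first basis -/
theorem ct_zero {X : Fin 6 → Fin 6 → Fin 6 → ℂ} (hX : Complete X) :
    CT (H0 X) ∧ CT fun i j => H0 X j i := by
  have hH := isHad_H0 hX
  exact (Dich.dichotomy ⟨hH.unimod, fun l m h => by rw [hH.row, if_neg h],
    fun k k' h => by rw [hH.col, if_neg h]⟩).resolve_right (Tao.not_complete_of_cubeRoot hX)

/-- in seven pairwise unbiased bases every transition matrix is on the branch -/
theorem trans_ct (B : Fin 7 → OrthonormalBasis (Fin 6) ℂ (EuclideanSpace ℂ (Fin 6)))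
    (hB : ∀ p q, p ≠ q → ∀ a b, ‖⟪B p a, B q b⟫_ℂ‖ ^ 2 = 1 / 6) (p q : Fin 7) (hpq : p ≠ q) :
    CT (CTBridge.trans (B p) (B q)) ∧ CT fun i j => CTBridge.trans (B p) (B q) j i := by
  obtain ⟨X, hX, eX⟩ := Tao.exists_complete_H0 B hB hpq
  have h := ct_zero hX
  rw [eX] at h
  exact h

/-- a certificate that is negative on the branch leaves at most five pairwise unbiased bases -/
theorem card_le_five {ps : List (Spec × ℤ)} (hok : TotalBridge.specsOk ps = true) {Q : ℕ}
    {posI negI : List TotalBridge.Item}
    (hperm : (posI ++ negI).isPerm (TotalBridge.items ps) = true) {pos neg : List Cert.Main.Term}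
    (hp : TotalBridge.matchL Q 1 posI pos = true) (hn : TotalBridge.matchL Q (-1) negI neg = true)
    (hlt : ∀ h, InM h → CT h → CT (fun i j => h j i) →
      (pos.map (Cert.Main.Term.val h)).sum < (neg.map (Cert.Main.Term.val h)).sum)
    (n : ℕ) (B : Fin n → OrthonormalBasis (Fin 6) ℂ (EuclideanSpace ℂ (Fin 6)))
    (hB : ∀ p q, p ≠ q → ∀ a b, ‖⟪B p a, B q b⟫_ℂ‖ ^ 2 = 1 / 6) : n ≤ 5 :=
  Weiner.card_le_five_of_no_seven (fun C hC => CTBridge.no_seven hok hperm hp hn hlt C hC 0 1
    (by decide) (trans_ct C hC 0 1 (by decide))) n B hB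

end Vale.Agent.P355.Assembly
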