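import Vale.Agent.P355.Assembly
import Vale.Agent.P355.Data.Final

/-!
P355: at most five pairwise mutually unbiased bases in dimension six, from the certificate on the
branch of vanishing three-against-three sums and the dichotomy for complex Hadamard matrices.
-/

open scoped InnerProductSpace

namespace Vale.Agent.P355

/-- there are at most five pairwise mutually unbiased bases of six-dimensional space -/
theorem card_le_five (n : ℕ)
    (B : Fin n → OrthonormalBasis (Fin 6) ℂ (EuclideanSpace ℂ (Fin 6)))
    (hB : ∀ p q, p ≠ q → ∀ a b, ‖⟪B p a, B q b⟫_ℂ‖ ^ 2 = 1 / 6) : n ≤ 5 :=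
  Weiner.card_le_five_of_no_seven (fun C hC => Data.no_seven_CT C hC 0 1 (by decide)
    (Assembly.trans_ct C hC 0 1 (by decide))) n B hB

end Vale.Agent.P355
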