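import Mathlib

/-
P355: the certificate polynomial `Phi` on regular complex Hadamard matrices of order six
(all row and column sums equal to the square root of six).
-/

open scoped BigOperators ComplexConjugate
open Finset

namespace Vale.Agent.P355

/-- regular complex Hadamard matrix of order six -/
structure InM (h : Fin 6 → Fin 6 → ℂ) : Prop where
  unimod : ∀ l k, ‖h l k‖ = 1
  row_orth : ∀ l m, l ≠ m → ∑ k, h l k * conj (h m k) = 0
  col_orth : ∀ k k', k ≠ k' → ∑ l, h l k * conj (h l k') = 0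
  row_sum : ∀ l, ∑ k, h l k = (Real.sqrt 6 : ℂ)
  col_sum : ∀ k, ∑ l, h l k = (Real.sqrt 6 : ℂ)

/-- row sums of squares -/
def rowSq (h : Fin 6 → Fin 6 → ℂ) (l : Fin 6) : ℂ := ∑ k, h l k ^ 2

/-- column sums of squares -/
def colSq (h : Fin 6 → Fin 6 → ℂ) (k : Fin 6) : ℂ := ∑ l, h l k ^ 2

/-- real part of the sum of all squares -/
def termF (h : Fin 6 → Fin 6 → ℂ) : ℝ := (∑ l, rowSq h l).re

/-- column quartic -/
def termR (h : Fin 6 → Fin 6 → ℂ) : ℝ := (∑ k, Complex.normSq (colSq h k)) - 36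

/-- row quartic -/
def termR' (h : Fin 6 → Fin 6 → ℂ) : ℝ := (∑ l, Complex.normSq (rowSq h l)) - 36

/-- mixed sextic -/
def termZ (h : Fin 6 → Fin 6 → ℂ) : ℝ :=
  (∑ l, ∑ k, rowSq h l * colSq h k * conj (h l k) ^ 2).re

/-- cubic pair correlation -/
def pairG (h : Fin 6 → Fin 6 → ℂ) (l m : Fin 6) : ℂ := ∑ k, h l k ^ 2 * conj (h m k)

/-- sum of products of opposite pair correlations -/
def termG2 (h : Fin 6 → Fin 6 → ℂ) : ℝ := (∑ l, ∑ m, pairG h l m * pairG h m l).re

/-- the phase invariant quantity -/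
def termInv (h : Fin 6 → Fin 6 → ℂ) : ℝ :=
  ∑ l, ∑ m, if l = m then 0 else Complex.normSq (∑ k, (h l k * conj (h m k)) ^ 2)

/-- the certificate -/
noncomputable def Phi (h : Fin 6 → Fin 6 → ℂ) : ℝ :=
  -5 * termF h + 3 * (termR h + termR' h + termInv h / 15) + termZ h
    - 2 * (termG2 h - termInv h / 5)

end Vale.Agent.P355
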