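import Mathlib

/-
P355: six pairwise mutually unbiased bases of `ℂ⁶` extend to seven (Weiner), so if there is no
family of seven then every family has at most five members.
-/

open scoped BigOperators ComplexConjugate InnerProductSpace Matrix ComplexOrder
open Finset Matrix

namespace Vale.Agent.P355.Weiner

abbrev Mat := Matrix (Fin 6) (Fin 6) ℂ
abbrev Idx := Fin 6 × Fin 6

variable (ψ : Fin 6 → Fin 6 → Fin 6 → ℂ)

/-- coordinates of six mutually unbiased bases -/
structure Six : Prop where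
  orth : ∀ j k k', star (ψ j k) ⬝ᵥ ψ j k' = if k = k' then 1 else 0
  complete : ∀ j a b, ∑ k, ψ j k a * conj (ψ j k b) = if a = b then 1 else 0
  unbiased : ∀ j j' k k', j ≠ j' →
    (star (ψ j k) ⬝ᵥ ψ j' k') * (star (ψ j' k') ⬝ᵥ ψ j k) = 1 / 6

/-- the expectation of a matrix at one of the vectors -/
def ev (v : Idx) : Mat →ₗ[ℂ] ℂ where
  toFun X := ∑ a, conj (ψ v.1 v.2 a) * ∑ b, X a b * ψ v.1 v.2 b
  map_add' X Y := by simp [add_mul, mul_add, Finset.sum_add_distrib]
  map_smul' c X := by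
    simp only [Matrix.smul_apply, smul_eq_mul, RingHom.id_apply, Finset.mul_sum]
    exact Finset.sum_congr rfl fun a _ => Finset.sum_congr rfl fun b _ => by ring

/-- rank one projection, as a vector -/
def w (v : Idx) (p : Idx) : ℂ := ψ v.1 v.2 p.1 * conj (ψ v.1 v.2 p.2)

/-- identity matrix, as a vector -/
def u (p : Idx) : ℂ := if p.1 = p.2 then 1 else 0

/-- projection to the operators orthogonal to all six bases -/
noncomputable def proj : Matrix Idx Idx ℂ :=
  1 - ∑ v, vecMulVec (w ψ v) (star (w ψ v)) + (5 / 6 : ℂ) • vecMulVec u (star u)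

/-- commutator with `A` -/
def ad (A : Mat) : Matrix Idx Idx ℂ :=
  Matrix.of fun p q =>
    (if p.2 = q.2 then A p.1 q.1 else 0) - (if p.1 = q.1 then A q.2 p.2 else 0)

/-- a matrix as a vector -/
def vec' (X : Mat) (p : Idx) : ℂ := X p.1 p.2

lemma ad_mulVec (A : Mat) (x : Idx → ℂ) (a b : Fin 6) :
    (ad A *ᵥ x) (a, b) = (∑ c, A a c * x (c, b)) - ∑ d, x (a, d) * A d b := by
  simp only [Matrix.mulVec, dotProduct, ad, Matrix.of_apply, sub_mul, Finset.sum_sub_distrib,
    Fintype.sum_prod_type]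
  congr 1
  · refine Finset.sum_congr rfl fun c _ => ?_
    simp [ite_mul]
  · rw [Finset.sum_eq_single a]
    · exact Finset.sum_congr rfl fun d _ => by simp [mul_comm]
    · intro c _ hc; simp [Ne.symm hc]
    · simp

variable {ψ}

lemma star_w_dot (v v' : Idx) : star (w ψ v) ⬝ᵥ w ψ v'
    = (star (ψ v.1 v.2) ⬝ᵥ ψ v'.1 v'.2) * (star (ψ v'.1 v'.2) ⬝ᵥ ψ v.1 v.2) := by
  simp only [dotProduct, Pi.star_apply, w, Fintype.sum_prod_type, Finset.sum_mul_sum,
    RCLike.star_def, map_mul, Complex.conj_conj]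
  exact Finset.sum_congr rfl fun a _ => Finset.sum_congr rfl fun b _ => by ring

lemma sum_w (hψ : Six ψ) (j : Fin 6) : ∑ k, w ψ (j, k) = u := by
  ext p
  simp only [Finset.sum_apply, w, u, hψ.complete]

lemma star_u : star u = u := by
  ext p; simp only [Pi.star_apply, u]; split_ifs <;> simp

lemma star_w_dot_u (hψ : Six ψ) (v : Idx) : star (w ψ v) ⬝ᵥ u = 1 := by
  have := hψ.orth v.1 v.2 v.2
  simp only [if_true, dotProduct, Pi.star_apply, RCLike.star_def] at this
  simp only [dotProduct, Pi.star_apply, w, u, Fintype.sum_prod_type, RCLike.star_def, map_mul,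
    Complex.conj_conj, mul_ite, mul_one, mul_zero, Finset.sum_ite_eq, Finset.mem_univ, if_true]
  exact this

lemma u_dot_u : u ⬝ᵥ u = 6 := by
  simp [dotProduct, u, Fintype.sum_prod_type]

lemma proj_mulVec (x : Idx → ℂ) : proj ψ *ᵥ x =
    x - ∑ v, (star (w ψ v) ⬝ᵥ x) • w ψ v + ((5 / 6 : ℂ) * (star u ⬝ᵥ x)) • u := by
  simp only [proj, add_mulVec, sub_mulVec, one_mulVec, sum_mulVec, smul_mulVec,
    vecMulVec_mulVec, op_smul_eq_smul, smul_smul]

lemma proj_w (hψ : Six ψ) (v₀ : Idx) : proj ψ *ᵥ w ψ v₀ = 0 := by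
  have hu : star u ⬝ᵥ w ψ v₀ = 1 := by
    have := star_w_dot_u hψ v₀
    calc star u ⬝ᵥ w ψ v₀ = star (star (w ψ v₀) ⬝ᵥ u) := by
          rw [← Matrix.star_dotProduct]
      _ = 1 := by rw [this, star_one]
  rw [proj_mulVec, hu, mul_one, Fintype.sum_prod_type]
  obtain ⟨j₀, k₀⟩ := v₀
  have hsame : ∑ k, (star (w ψ (j₀, k)) ⬝ᵥ w ψ (j₀, k₀)) • w ψ (j₀, k) = w ψ (j₀, k₀) := by
    rw [Finset.sum_eq_single k₀]
    · simp [star_w_dot, hψ.orth]
    · intro k _ hk; simp [star_w_dot, hψ.orth, hk]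
    · simp
  have hoth : ∀ j, j ≠ j₀ →
      ∑ k, (star (w ψ (j, k)) ⬝ᵥ w ψ (j₀, k₀)) • w ψ (j, k) = (1 / 6 : ℂ) • u := by
    intro j hj
    rw [← sum_w hψ j, Finset.smul_sum]
    exact Finset.sum_congr rfl fun k _ => by rw [star_w_dot, hψ.unbiased _ _ _ _ hj]
  rw [← Finset.add_sum_erase _ _ (Finset.mem_univ j₀), hsame,
    Finset.sum_congr rfl fun j hj => hoth j (Finset.ne_of_mem_erase hj), Finset.sum_const,
    Finset.card_erase_of_mem (Finset.mem_univ j₀), Finset.card_univ, Fintype.card_fin]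
  ext p
  simp only [Pi.add_apply, Pi.sub_apply, Pi.smul_apply, Pi.zero_apply, smul_eq_mul, nsmul_eq_mul]
  norm_num
  ring

lemma proj_u (hψ : Six ψ) : proj ψ *ᵥ u = 0 := by
  rw [proj_mulVec, Fintype.sum_prod_type]
  simp only [star_w_dot_u hψ, one_smul, sum_w hψ]
  rw [star_u, u_dot_u]
  ext p
  simp
  ring

lemma proj_herm : (proj ψ)ᴴ = proj ψ := by
  simp [proj, conjTranspose_add, conjTranspose_sub, conjTranspose_sum, conjTranspose_smul,
    conjTranspose_vecMulVec]

lemma proj_idem (hψ : Six ψ) : proj ψ * proj ψ = proj ψ := by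
  conv_lhs => arg 2; rw [proj]
  simp only [mul_add, mul_sub, mul_one, Finset.mul_sum, mul_vecMulVec, Matrix.mul_smul,
    proj_w hψ, proj_u hψ, zero_vecMulVec, Finset.sum_const_zero, smul_zero, sub_zero, add_zero]

lemma sum_sq_pull (hψ : Six ψ) (j : Fin 6) (f : Fin 6 → ℂ) :
    ∑ k, conj (∑ c, f c * ψ j k c) * (∑ c, f c * ψ j k c) = ∑ c, conj (f c) * f c := by
  simp only [map_sum, map_mul, Finset.sum_mul_sum]
  rw [Finset.sum_comm]
  refine Finset.sum_congr rfl fun c _ => ?_
  rw [Finset.sum_comm]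
  calc ∑ d, ∑ k, conj (f c) * conj (ψ j k c) * (f d * ψ j k d)
      = ∑ d, conj (f c) * f d * ∑ k, ψ j k d * conj (ψ j k c) :=
        Finset.sum_congr rfl fun d _ => by
          rw [Finset.mul_sum]; exact Finset.sum_congr rfl fun k _ => by ring
    _ = conj (f c) * f c := by simp [hψ.complete]

lemma ad_w (hψ : Six ψ) (A : Mat) (v : Idx) (hv : ev ψ v A = 0) :
    star (ad A *ᵥ w ψ v) ⬝ᵥ (ad A *ᵥ w ψ v)
      = (∑ a, conj (∑ c, A a c * ψ v.1 v.2 c) * ∑ c, A a c * ψ v.1 v.2 c)
        + ∑ b, conj (∑ d, conj (A d b) * ψ v.1 v.2 d) * ∑ d, conj (A d b) * ψ v.1 v.2 d := by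
  set x := ψ v.1 v.2 with hx
  set p : Fin 6 → ℂ := fun a => ∑ c, A a c * x c with hp
  set q : Fin 6 → ℂ := fun b => ∑ d, conj (A d b) * x d with hq
  have hxx : ∑ a, conj (x a) * x a = 1 := by
    have := hψ.orth v.1 v.2 v.2
    simpa [dotProduct] using this
  have hz : ∑ a, conj (x a) * p a = 0 := hv
  have hqx : ∑ b, conj (q b) * x b = 0 := by
    rw [← hv]
    simp only [ev, LinearMap.coe_mk, AddHom.coe_mk, hq, ← hx, map_sum, map_mul, Complex.conj_conj,
      Finset.sum_mul, Finset.mul_sum]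
    rw [Finset.sum_comm]
    exact Finset.sum_congr rfl fun a _ => Finset.sum_congr rfl fun b _ => by ring
  have hz' : ∑ a, conj (p a) * x a = 0 := by
    have := congrArg (starRingEnd ℂ) hz
    simpa [map_sum, mul_comm] using this
  have hqx' : ∑ b, conj (x b) * q b = 0 := by
    have := congrArg (starRingEnd ℂ) hqx
    simpa [map_sum, mul_comm] using this
  have happ : ∀ a b, (ad A *ᵥ w ψ v) (a, b) = p a * conj (x b) - x a * conj (q b) := by
    intro a b
    rw [ad_mulVec]
    simp only [w, hp, hq, ← hx, map_sum, map_mul, Complex.conj_conj, Finset.sum_mul,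
      Finset.mul_sum]
    congr 1 <;> exact Finset.sum_congr rfl fun c _ => by ring
  calc star (ad A *ᵥ w ψ v) ⬝ᵥ (ad A *ᵥ w ψ v)
      = ∑ a, ∑ b, conj (p a * conj (x b) - x a * conj (q b))
          * (p a * conj (x b) - x a * conj (q b)) := by
        simp only [dotProduct, Pi.star_apply, RCLike.star_def, Fintype.sum_prod_type, happ]
    _ = (∑ a, conj (p a) * p a) * (∑ b, conj (x b) * x b)
          + (∑ a, conj (x a) * x a) * (∑ b, conj (q b) * q b)
          - (∑ a, conj (p a) * x a) * (∑ b, conj (q b) * x b)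
          - (∑ a, conj (x a) * p a) * (∑ b, conj (x b) * q b) := by
        simp only [Finset.sum_mul_sum, ← Finset.sum_add_distrib, ← Finset.sum_sub_distrib]
        refine Finset.sum_congr rfl fun a _ => Finset.sum_congr rfl fun b _ => ?_
        simp only [map_sub, map_mul, Complex.conj_conj]
        ring
    _ = _ := by
        rw [hxx, hz, hz', hqx, hqx']
        ring

lemma trace_ad (A : Mat) (hA : ∑ a, A a a = 0) :
    ((ad A)ᴴ * ad A).trace = 12 * ∑ a, ∑ c, conj (A a c) * A a c := by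
  have e1 : ((ad A)ᴴ * ad A).trace = ∑ c, ∑ d, ∑ a, ∑ b,
      conj ((if b = d then A a c else 0) - (if a = c then A d b else 0))
        * ((if b = d then A a c else 0) - (if a = c then A d b else 0)) := by
    simp only [Matrix.trace, Matrix.diag, Matrix.mul_apply, conjTranspose_apply, ad,
      Matrix.of_apply, RCLike.star_def, Fintype.sum_prod_type]
  have e2 : ∀ c d a b : Fin 6,
      conj ((if b = d then A a c else 0) - (if a = c then A d b else 0))
        * ((if b = d then A a c else 0) - (if a = c then A d b else 0))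
      = (if b = d then conj (A a c) * A a c else 0) + (if a = c then conj (A d b) * A d b else 0)
        - (if b = d then if a = c then conj (A a c) * A d b else 0 else 0)
        - (if b = d then if a = c then conj (A d b) * A a c else 0 else 0) := by
    intro c d a b
    split_ifs <;> simp <;> ring
  rw [e1]
  simp only [e2, Finset.sum_add_distrib, Finset.sum_sub_distrib, Finset.sum_ite_eq',
    Finset.mem_univ, if_true, Finset.sum_const, Finset.card_univ, Fintype.card_fin,
    Finset.sum_ite_irrel]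
  have hA' : ∑ a, conj (A a a) = 0 := by rw [← map_sum, hA, map_zero]
  simp only [← Finset.mul_sum, ← Finset.sum_mul, hA, hA', mul_zero, zero_mul,
    nsmul_eq_mul, Finset.sum_comm (f := fun c a => conj (A a c) * A a c)]
  simp [Finset.mul_sum]
  simp only [← Finset.mul_sum]
  ring

lemma ad_mul_proj (hψ : Six ψ) (A : Mat) (hA : ∑ a, A a a = 0) (hev : ∀ v, ev ψ v A = 0) :
    ad A * proj ψ = 0 := by
  rw [← trace_conjTranspose_mul_self_eq_zero_iff]
  have h0 : ((ad A * proj ψ)ᴴ * (ad A * proj ψ)).trace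
      = ((ad A)ᴴ * ad A * proj ψ).trace := by
    rw [conjTranspose_mul, proj_herm, Matrix.mul_assoc, Matrix.trace_mul_comm]
    simp only [Matrix.mul_assoc, proj_idem hψ]
  have hLu : ad A *ᵥ u = 0 := by
    ext ⟨a, b⟩
    simp [ad_mulVec, u]
  have hterm : ∀ y : Idx → ℂ, ((ad A)ᴴ * ad A * vecMulVec y (star y)).trace
      = star (ad A *ᵥ y) ⬝ᵥ (ad A *ᵥ y) := by
    intro y
    rw [mul_vecMulVec, trace_vecMulVec, dotProduct_comm, ← mulVec_mulVec, dotProduct_mulVec,
      star_mulVec]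
  rw [h0, proj]
  simp only [mul_add, mul_sub, mul_one, Matrix.mul_sum, Matrix.mul_smul, trace_add, trace_sub,
    trace_sum, trace_smul, hterm, hLu, dotProduct_zero, smul_zero, add_zero,
    Finset.sum_congr rfl fun v _ => ad_w hψ A v (hev v), trace_ad A hA]
  rw [Fintype.sum_prod_type]
  simp only [Finset.sum_add_distrib]
  have e1 : ∀ j, (∑ k, ∑ a, conj (∑ c, A a c * ψ j k c) * ∑ c, A a c * ψ j k c)
      = ∑ a, ∑ c, conj (A a c) * A a c := by
    intro j
    rw [Finset.sum_comm]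
    exact Finset.sum_congr rfl fun a _ => sum_sq_pull hψ j _
  have e2 : ∀ j, (∑ k, ∑ b, conj (∑ d, conj (A d b) * ψ j k d) * ∑ d, conj (A d b) * ψ j k d)
      = ∑ a, ∑ c, conj (A a c) * A a c := by
    intro j
    rw [Finset.sum_comm, Finset.sum_congr rfl fun b _ => sum_sq_pull hψ j fun d => conj (A d b),
      Finset.sum_comm]
    exact Finset.sum_congr rfl fun a _ => Finset.sum_congr rfl fun c _ => by
      rw [Complex.conj_conj]; ring
  rw [Finset.sum_congr rfl fun j _ => e1 j, Finset.sum_congr rfl fun j _ => e2 j]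
  rw [Finset.sum_const, Finset.card_univ, Fintype.card_fin, nsmul_eq_mul]
  push_cast
  ring

/-- differences of expectations inside each basis -/
def diffs (ψ : Fin 6 → Fin 6 → Fin 6 → ℂ) : Mat →ₗ[ℂ] (Fin 6 × Fin 5 → ℂ) :=
  LinearMap.pi fun p => ev ψ (p.1, p.2.castSucc) - ev ψ (p.1, Fin.last 5)

lemma ev_one (hψ : Six ψ) (v : Idx) : ev ψ v 1 = 1 := by
  have := hψ.orth v.1 v.2 v.2
  simpa [dotProduct, ev, Matrix.one_apply] using this

lemma sum_ev (hψ : Six ψ) (j : Fin 6) (X : Mat) : ∑ k, ev ψ (j, k) X = X.trace := by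
  simp only [ev, LinearMap.coe_mk, AddHom.coe_mk, Finset.mul_sum, Matrix.trace, Matrix.diag]
  rw [Finset.sum_comm]
  refine Finset.sum_congr rfl fun a _ => ?_
  rw [Finset.sum_comm]
  calc ∑ b, ∑ k, conj (ψ j k a) * (X a b * ψ j k b)
      = ∑ b, X a b * ∑ k, ψ j k b * conj (ψ j k a) :=
        Finset.sum_congr rfl fun b _ => by
          rw [Finset.mul_sum]; exact Finset.sum_congr rfl fun k _ => by ring
    _ = X a a := by simp [hψ.complete]

lemma ev_eq_trace (hψ : Six ψ) {X : Mat} (hX : X ∈ LinearMap.ker (diffs ψ)) (v : Idx) :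
    ev ψ v X = X.trace / 6 := by
  have hall : ∀ k, ev ψ (v.1, k) X = ev ψ (v.1, Fin.last 5) X := by
    intro k
    refine Fin.lastCases rfl (fun i => ?_) k
    have := congrFun (LinearMap.mem_ker.mp hX) (v.1, i)
    simpa [diffs, sub_eq_zero] using this
  have h := sum_ev hψ v.1 X
  rw [Finset.sum_congr rfl fun k _ => hall k, Finset.sum_const, Finset.card_univ,
    Fintype.card_fin, ← hall v.2] at h
  rw [← h, nsmul_eq_mul]
  push_cast
  ring

lemma commute_ker (hψ : Six ψ) {X Y : Mat} (hX : X ∈ LinearMap.ker (diffs ψ))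
    (hY : Y ∈ LinearMap.ker (diffs ψ)) : X * Y = Y * X := by
  have red : ∀ {X : Mat}, X ∈ LinearMap.ker (diffs ψ) →
      (∑ a, (X - (X.trace / 6) • (1 : Mat)) a a = 0) ∧
        ∀ v, ev ψ v (X - (X.trace / 6) • (1 : Mat)) = 0 := by
    intro X hX
    refine ⟨?_, fun v => ?_⟩
    · have : (X - (X.trace / 6) • (1 : Mat)).trace = 0 := by
        simp [trace_sub, trace_smul, trace_one]
      simpa [Matrix.trace, Matrix.diag] using this
    · simp [map_sub, map_smul, ev_one hψ, ev_eq_trace hψ hX]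
  obtain ⟨hAt, hAe⟩ := red hX
  obtain ⟨hBt, hBe⟩ := red hY
  set A := X - (X.trace / 6) • (1 : Mat) with hAdef
  set B := Y - (Y.trace / 6) • (1 : Mat) with hBdef
  have hfix : proj ψ *ᵥ vec' B = vec' B := by
    have h1 : ∀ v, star (w ψ v) ⬝ᵥ vec' B = 0 := by
      intro v
      rw [← hBe v]
      simp only [ev, LinearMap.coe_mk, AddHom.coe_mk, dotProduct, Pi.star_apply, w, vec',
        Fintype.sum_prod_type, RCLike.star_def, map_mul, Complex.conj_conj, Finset.mul_sum]
      exact Finset.sum_congr rfl fun a _ => Finset.sum_congr rfl fun b _ => by ring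
    have h2 : star u ⬝ᵥ vec' B = 0 := by
      rw [star_u, ← hBt]
      simp [dotProduct, u, vec', Fintype.sum_prod_type]
    simp [proj_mulVec, h1, h2]
  have hAB : A * B = B * A := by
    have h := congrArg (fun M => M *ᵥ vec' B) (ad_mul_proj hψ A hAt hAe)
    simp only [← mulVec_mulVec, hfix, zero_mulVec] at h
    ext a b
    have hab := congrFun h (a, b)
    rw [ad_mulVec, Pi.zero_apply, sub_eq_zero] at hab
    simpa [Matrix.mul_apply, vec'] using hab
  have hX' : X = A + (X.trace / 6) • (1 : Mat) := by rw [hAdef]; abel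
  have hY' : Y = B + (Y.trace / 6) • (1 : Mat) := by rw [hBdef]; abel
  rw [hX', hY']
  simp only [add_mul, mul_add, Matrix.smul_mul, Matrix.mul_smul, Matrix.one_mul, Matrix.mul_one,
    hAB, smul_smul]
  rw [mul_comm (X.trace / 6) (Y.trace / 6)]
  abel

lemma star_mem_ker {X : Mat} (hX : X ∈ LinearMap.ker (diffs ψ)) :
    Xᴴ ∈ LinearMap.ker (diffs ψ) := by
  have hev : ∀ v, ev ψ v Xᴴ = conj (ev ψ v X) := by
    intro v
    simp only [ev, LinearMap.coe_mk, AddHom.coe_mk, map_sum, map_mul, Complex.conj_conj,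
      conjTranspose_apply, RCLike.star_def, Finset.mul_sum]
    rw [Finset.sum_comm]
    exact Finset.sum_congr rfl fun a _ => Finset.sum_congr rfl fun b _ => by ring
  rw [LinearMap.mem_ker] at hX ⊢
  ext p
  have h := congrFun hX p
  simp only [diffs, LinearMap.pi_apply, LinearMap.sub_apply, Pi.zero_apply] at h ⊢
  rw [hev, hev, ← map_sub, h, map_zero]

/-- simultaneous eigenbasis -/
lemma exists_basis (hψ : Six ψ) : ∃ C : OrthonormalBasis (Fin 6) ℂ (EuclideanSpace ℂ (Fin 6)),
    ∀ i, ∀ X ∈ LinearMap.ker (diffs ψ), ∃ c : ℂ, X *ᵥ (C i : Fin 6 → ℂ) = c • (C i : Fin 6 → ℂ) := by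
  classical
  let T : {X : Mat // X ∈ LinearMap.ker (diffs ψ) ∧ X.IsHermitian} →
      Module.End ℂ (EuclideanSpace ℂ (Fin 6)) := fun X => Matrix.toEuclideanLin X.1
  have hT : ∀ X, (T X).IsSymmetric := fun X =>
    Matrix.isSymmetric_toEuclideanLin_iff.mpr X.2.2
  have hC : Pairwise (Function.onFun Commute T) := by
    intro X Y _
    show T X * T Y = T Y * T X
    refine LinearMap.ext fun z => ?_
    simp only [Module.End.mul_apply, T, Matrix.toEuclideanLin_apply, mulVec_mulVec,
      commute_ker hψ X.2.1 Y.2.1]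
  have hint := DirectSum.isInternal_ne_bot_iff.mpr
    (LinearMap.IsSymmetric.directSum_isInternal_of_pairwise_commute hT hC)
  let V : ({X : Mat // X ∈ LinearMap.ker (diffs ψ) ∧ X.IsHermitian} → ℂ) →
      Submodule ℂ (EuclideanSpace ℂ (Fin 6)) := fun γ => ⨅ X, Module.End.eigenspace (T X) (γ X)
  have horth := (LinearMap.IsSymmetric.orthogonalFamily_iInf_eigenspaces hT).comp
    (Subtype.coe_injective (p := fun γ => V γ ≠ ⊥))
  have : Finite {γ // V γ ≠ ⊥} :=
    (Submodule.finite_ne_bot_of_iSupIndep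
      (LinearMap.IsSymmetric.orthogonalFamily_iInf_eigenspaces hT).independent).to_subtype
  have := Fintype.ofFinite {γ // V γ ≠ ⊥}
  have hn : Module.finrank ℂ (EuclideanSpace ℂ (Fin 6)) = 6 := finrank_euclideanSpace_fin
  refine ⟨hint.subordinateOrthonormalBasis hn horth, fun i X hX => ?_⟩
  have hmem := hint.subordinateOrthonormalBasis_subordinate hn i horth
  set z := hint.subordinateOrthonormalBasis hn horth i
  set γ := (hint.subordinateOrthonormalBasisIndex hn i horth).1
  have key : ∀ H : {X : Mat // X ∈ LinearMap.ker (diffs ψ) ∧ X.IsHermitian},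
      H.1 *ᵥ (z : Fin 6 → ℂ) = γ H • (z : Fin 6 → ℂ) := by
    intro H
    have h := Module.End.mem_eigenspace_iff.mp (Submodule.mem_iInf _ |>.mp hmem H)
    exact congrArg WithLp.ofLp h
  have h1 : X + Xᴴ ∈ LinearMap.ker (diffs ψ) ∧ (X + Xᴴ).IsHermitian :=
    ⟨Submodule.add_mem _ hX (star_mem_ker hX), isHermitian_add_transpose_self X⟩
  have h2 : Complex.I • (X - Xᴴ) ∈ LinearMap.ker (diffs ψ) ∧ (Complex.I • (X - Xᴴ)).IsHermitian := by
    refine ⟨Submodule.smul_mem _ _ (Submodule.sub_mem _ hX (star_mem_ker hX)), ?_⟩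
    simp [Matrix.IsHermitian, conjTranspose_smul, conjTranspose_sub, ← smul_neg]
  have e : X = (1 / 2 : ℂ) • (X + Xᴴ) + (-Complex.I / 2) • (Complex.I • (X - Xᴴ)) := by
    ext a b
    simp only [Matrix.add_apply, Matrix.smul_apply, Matrix.sub_apply, smul_eq_mul]
    linear_combination ((X a b - Xᴴ a b) / 2) * Complex.I_mul_I
  refine ⟨(1 / 2 : ℂ) * γ ⟨_, h1⟩ + (-Complex.I / 2) * γ ⟨_, h2⟩, ?_⟩
  conv_lhs => rw [e]
  rw [add_mulVec, smul_mulVec, smul_mulVec, key ⟨_, h1⟩, key ⟨_, h2⟩, add_smul,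
    smul_smul, smul_smul]

/-- six mutually unbiased bases extend to seven -/
theorem exists_seventh (B : Fin 6 → OrthonormalBasis (Fin 6) ℂ (EuclideanSpace ℂ (Fin 6)))
    (hB : ∀ p q, p ≠ q → ∀ a b, ‖⟪B p a, B q b⟫_ℂ‖ ^ 2 = 1 / 6) :
    ∃ C : OrthonormalBasis (Fin 6) ℂ (EuclideanSpace ℂ (Fin 6)),
      ∀ p a b, ‖⟪B p a, C b⟫_ℂ‖ ^ 2 = 1 / 6 := by
  set ψ : Fin 6 → Fin 6 → Fin 6 → ℂ := fun j k => (B j k : Fin 6 → ℂ) with hψdef
  have hdot : ∀ x y : EuclideanSpace ℂ (Fin 6),
      star (x : Fin 6 → ℂ) ⬝ᵥ (y : Fin 6 → ℂ) = ⟪x, y⟫_ℂ := by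
    intro x y
    rw [EuclideanSpace.inner_eq_star_dotProduct, dotProduct_comm]
  have hcomp : ∀ (C : OrthonormalBasis (Fin 6) ℂ (EuclideanSpace ℂ (Fin 6))) a b,
      ∑ k, C k a * conj (C k b) = if a = b then 1 else 0 := by
    intro C a b
    have h := C.sum_inner_mul_inner (EuclideanSpace.single a (1 : ℂ)) (EuclideanSpace.single b (1 : ℂ))
    simp only [EuclideanSpace.inner_single_left, EuclideanSpace.inner_single_right, map_one,
      one_mul] at h
    simpa [Pi.single_apply, eq_comm (a := b) (b := a)] using h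
  have hψ : Six ψ := by
    refine ⟨fun j k k' => ?_, fun j a b => hcomp (B j) a b, fun j j' k k' hj => ?_⟩
    · rw [hdot, (B j).inner_eq_ite]
    · rw [hdot, hdot, ← inner_conj_symm (B j' k') (B j k), Complex.mul_conj', ← Complex.ofReal_pow,
        hB j j' hj k k']
      norm_num
  obtain ⟨C, hC⟩ := exists_basis hψ
  refine ⟨C, fun p a b => ?_⟩
  set Q : Fin 6 → Mat := fun i =>
    vecMulVec (C i : Fin 6 → ℂ) (star (C i : Fin 6 → ℂ)) with hQ
  have hone : (1 : Mat) = ∑ i, Q i := by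
    ext a b
    simp [hQ, Matrix.sum_apply, vecMulVec_apply, hcomp, Matrix.one_apply]
  have hsub : LinearMap.ker (diffs ψ) ≤ Submodule.span ℂ (Set.range Q) := by
    intro X hX
    have hXe : X = ∑ i, (hC i X hX).choose • Q i := by
      calc X = X * 1 := (Matrix.mul_one X).symm
        _ = ∑ i, X * Q i := by rw [hone, Finset.mul_sum]
        _ = _ := Finset.sum_congr rfl fun i _ => by
            have h := (hC i X hX).choose_spec
            generalize (hC i X hX).choose = c at h ⊢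
            show X * vecMulVec _ _ = _
            rw [mul_vecMulVec, h, smul_vecMulVec]
    rw [hXe]
    exact Submodule.sum_mem _ fun i _ => Submodule.smul_mem _ _ (Submodule.subset_span ⟨i, rfl⟩)
  have hle : Module.finrank ℂ (Submodule.span ℂ (Set.range Q))
      ≤ Module.finrank ℂ (LinearMap.ker (diffs ψ)) := by
    refine (finrank_range_le_card Q).trans ?_
    have h := LinearMap.finrank_range_add_finrank_ker (diffs ψ)
    have h2 := Submodule.finrank_le (LinearMap.range (diffs ψ))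
    simp only [Module.finrank_matrix, Module.finrank_self, Module.finrank_fintype_fun_eq_card,
      Fintype.card_prod, Fintype.card_fin] at h h2 ⊢
    omega
  have heq := Submodule.eq_of_le_of_finrank_le hsub hle
  have hmem : Q b ∈ LinearMap.ker (diffs ψ) := heq ▸ Submodule.subset_span ⟨b, rfl⟩
  have h := ev_eq_trace hψ hmem (p, a)
  have htr : (Q b).trace = 1 := by
    rw [hQ, trace_vecMulVec, dotProduct_comm, hdot, C.inner_eq_ite]; simp
  have hev : ev ψ (p, a) (Q b) = ⟪B p a, C b⟫_ℂ * ⟪C b, B p a⟫_ℂ := by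
    rw [← hdot, ← hdot]
    simp only [ev, LinearMap.coe_mk, AddHom.coe_mk, hQ, hψdef, vecMulVec_apply, dotProduct,
      Pi.star_apply, RCLike.star_def]
    rw [Finset.sum_mul]
    refine Finset.sum_congr rfl fun i _ => ?_
    rw [Finset.mul_sum, Finset.mul_sum]
    exact Finset.sum_congr rfl fun j _ => by ring
  rw [hev, htr, ← inner_conj_symm (C b) (B p a), Complex.mul_conj'] at h
  have h' : ((‖⟪B p a, C b⟫_ℂ‖ ^ 2 : ℝ) : ℂ) = ((1 / 6 : ℝ) : ℂ) := by
    push_cast
    exact h
  exact_mod_cast h'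

/-- without seven unbiased bases there are at most five -/
theorem card_le_five_of_no_seven
    (h7 : ∀ B : Fin 7 → OrthonormalBasis (Fin 6) ℂ (EuclideanSpace ℂ (Fin 6)),
      (∀ p q, p ≠ q → ∀ a b, ‖⟪B p a, B q b⟫_ℂ‖ ^ 2 = 1 / 6) → False)
    (n : ℕ) (B : Fin n → OrthonormalBasis (Fin 6) ℂ (EuclideanSpace ℂ (Fin 6)))
    (hB : ∀ p q, p ≠ q → ∀ a b, ‖⟪B p a, B q b⟫_ℂ‖ ^ 2 = 1 / 6) : n ≤ 5 := by
  by_contra hn
  have hn6 : 6 ≤ n := by omega
  set B6 := fun i : Fin 6 => B (i.castLE hn6)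
  have hB6 : ∀ p q, p ≠ q → ∀ a b, ‖⟪B6 p a, B6 q b⟫_ℂ‖ ^ 2 = 1 / 6 := fun p q hpq =>
    hB _ _ fun e => hpq (Fin.castLE_injective hn6 e)
  obtain ⟨C, hC⟩ := exists_seventh B6 hB6
  refine h7 (Fin.cons C B6) fun p q hpq a b => ?_
  induction p using Fin.cases with
  | zero =>
    induction q using Fin.cases with
    | zero => exact absurd rfl hpq
    | succ q => simp only [Fin.cons_zero, Fin.cons_succ]; rw [← hC q b a, ← inner_conj_symm, RCLike.norm_conj]
  | succ p =>
    induction q using Fin.cases with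
    | zero => simp only [Fin.cons_zero, Fin.cons_succ]; exact hC p a b
    | succ q => simp only [Fin.cons_succ]; exact hB6 p q (fun e => hpq (congrArg Fin.succ e)) a b

end Vale.Agent.P355.Weiner
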