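import Vale.Agent.P355.Reduction
import Vale.Agent.P355.Weiner

/-!
P355: if `Phi` is negative on regular Hadamard matrices of order six, then at most five pairwise
mutually unbiased bases exist in `ℂ⁶`.
-/

open scoped InnerProductSpace

namespace Vale.Agent.P355

/-- at most five pairwise mutually unbiased bases, from the inequality -/
theorem card_le_five_of_phi_neg (hPhi : ∀ h, InM h → Phi h < 0) (n : ℕ)
    (B : Fin n → OrthonormalBasis (Fin 6) ℂ (EuclideanSpace ℂ (Fin 6)))
    (hB : ∀ p q, p ≠ q → ∀ a b, ‖⟪B p a, B q b⟫_ℂ‖ ^ 2 = 1 / 6) : n ≤ 5 :=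
  Weiner.card_le_five_of_no_seven (fun C hC => no_seven_of_phi_neg hPhi C hC) n B hB

end Vale.Agent.P355
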