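import Mathlib

/-
P355: fourth moments of the thirty six torus vectors of a complete set of bases in dimension six.
-/

open scoped BigOperators ComplexConjugate
open Finset

namespace Vale.Agent.P355

/-- coordinates (scaled by sqrt 6) of six bases unbiased to the standard one and to each other -/
structure Complete (X : Fin 6 → Fin 6 → Fin 6 → ℂ) : Prop where
  unimod : ∀ p a i, ‖X p a i‖ = 1
  orth : ∀ p a b, a ≠ b → ∑ i, X p a i * conj (X p b i) = 0
  unbiased : ∀ p q a b, p ≠ q → ‖∑ i, X p a i * conj (X q b i)‖ ^ 2 = 6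

lemma conj_mul_self_of_norm {z : ℂ} (h : ‖z‖ = 1) : z * conj z = 1 := by
  rw [Complex.mul_conj, Complex.normSq_eq_norm_sq, h]; norm_num

/-- product of four sums as one sum over quadruples -/
lemma prod_four (f g h k : Fin 6 → ℂ) :
    (∑ i, f i) * (∑ i, g i) * (∑ i, h i) * (∑ i, k i)
      = ∑ a, ∑ b, ∑ c, ∑ d, f a * g b * h c * k d := by
  rw [mul_assoc ((∑ i, f i) * (∑ i, g i)), Finset.sum_mul_sum univ univ f g,
    Finset.sum_mul_sum univ univ h k, Finset.sum_mul]
  refine Finset.sum_congr rfl fun a _ => ?_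
  rw [Finset.sum_mul]
  refine Finset.sum_congr rfl fun b _ => ?_
  rw [Finset.mul_sum]
  refine Finset.sum_congr rfl fun c _ => ?_
  rw [Finset.mul_sum]
  exact Finset.sum_congr rfl fun d _ => by ring

/-- the value of the fourth moment -/
def tor (a b c d : Fin 6) : ℂ :=
  36 * ((if a = c ∧ b = d then 1 else 0) + (if a = d ∧ b = c then 1 else 0)
    - (if a = b ∧ a = c ∧ a = d then 1 else 0))

lemma tor_contract (α β γ δ : Fin 6 → ℂ) :
    ∑ a, ∑ b, ∑ c, ∑ d, α a * β b * γ c * δ d * tor a b c d
      = 36 * ((∑ i, α i * γ i) * (∑ i, β i * δ i) + (∑ i, α i * δ i) * (∑ i, β i * γ i)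
        - ∑ i, α i * β i * γ i * δ i) := by
  simp only [tor, mul_add, mul_sub, Finset.sum_add_distrib, Finset.sum_sub_distrib, ite_and,
    mul_ite, mul_one, mul_zero, Finset.sum_ite_eq, Finset.sum_ite_irrel,
    Finset.sum_const_zero, Finset.mem_univ, if_true]
  simp only [Finset.mul_sum, Finset.sum_mul]
  congr 1
  · congr 1
    · rw [Finset.sum_comm]
      exact Finset.sum_congr rfl fun a _ => Finset.sum_congr rfl fun b _ => by ring
    · rw [Finset.sum_comm]
      exact Finset.sum_congr rfl fun a _ => Finset.sum_congr rfl fun b _ => by ring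
  · exact Finset.sum_congr rfl fun a _ => by ring

/-- the monomial attached to one vector -/
def mono (u : Fin 6 → ℂ) (q : Fin 6 × Fin 6 × Fin 6 × Fin 6) : ℂ :=
  u q.1 * u q.2.1 * conj (u q.2.2.1) * conj (u q.2.2.2)

lemma mono_pair (u v : Fin 6 → ℂ) :
    ∑ q, mono u q * conj (mono v q)
      = (Complex.normSq (∑ i, u i * conj (v i)) : ℂ) ^ 2 := by
  have h := prod_four (fun i => u i * conj (v i)) (fun i => u i * conj (v i))
    (fun i => conj (u i) * v i) (fun i => conj (u i) * v i)
  have hc : conj (∑ i, u i * conj (v i)) = ∑ i, conj (u i) * v i := by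
    simp [map_sum]
  rw [← Complex.mul_conj, hc]
  refine Eq.trans ?_ (Eq.trans h.symm (by ring))
  simp only [Fintype.sum_prod_type, mono]
  refine Finset.sum_congr rfl fun a _ => Finset.sum_congr rfl fun b _ =>
    Finset.sum_congr rfl fun c _ => Finset.sum_congr rfl fun d _ => ?_
  simp only [map_mul, Complex.conj_conj]
  ring

variable {X : Fin 6 → Fin 6 → Fin 6 → ℂ}

lemma Complete.gram (hX : Complete X) (p q a b : Fin 6) :
    Complex.normSq (∑ i, X p a i * conj (X q b i))
      = if p = q then (if a = b then 36 else 0) else 6 := by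
  split_ifs with hp hab
  · subst hp hab
    simp only [conj_mul_self_of_norm (hX.unimod p a _)]
    norm_num [Complex.normSq_ofNat]
  · subst hp
    rw [hX.orth p a b hab, map_zero]
  · rw [Complex.normSq_eq_norm_sq, hX.unbiased p q a b hp]

lemma Complete.frame (hX : Complete X) :
    ∑ v : Fin 6 × Fin 6, ∑ v' : Fin 6 × Fin 6,
      (Complex.normSq (∑ i, X v.1 v.2 i * conj (X v'.1 v'.2 i)) : ℂ) ^ 2 = 85536 := by
  simp only [hX.gram, Fintype.sum_prod_type]
  have h : ∀ p a : Fin 6, ∑ q : Fin 6, ∑ b : Fin 6,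
      ((if p = q then (if a = b then (36 : ℝ) else 0) else 6 : ℝ) : ℂ) ^ 2 = 2376 := by
    intro p a
    rw [← Finset.add_sum_erase _ _ (Finset.mem_univ p)]
    have h1 : ∀ q ∈ Finset.univ.erase p, ∑ b : Fin 6,
        ((if p = q then (if a = b then (36 : ℝ) else 0) else 6 : ℝ) : ℂ) ^ 2 = 216 := by
      intro q hq
      simp [Ne.symm (Finset.ne_of_mem_erase hq)]
      norm_num
    rw [Finset.sum_congr rfl h1, Finset.sum_const, Finset.card_erase_of_mem (Finset.mem_univ p)]
    simp [apply_ite, ite_pow]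
    norm_num
  simp only [h, Finset.sum_const, Finset.card_univ, Fintype.card_fin]
  norm_num

/-- the torus vectors form a toral two-design -/
lemma Complete.moment (hX : Complete X) (a b c d : Fin 6) :
    ∑ v : Fin 6 × Fin 6,
      X v.1 v.2 a * X v.1 v.2 b * conj (X v.1 v.2 c) * conj (X v.1 v.2 d) = tor a b c d := by
  set M : Fin 6 × Fin 6 × Fin 6 × Fin 6 → ℂ := fun q =>
    ∑ v : Fin 6 × Fin 6, mono (X v.1 v.2) q with hM
  set T : Fin 6 × Fin 6 × Fin 6 × Fin 6 → ℂ := fun q => tor q.1 q.2.1 q.2.2.1 q.2.2.2 with hT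
  have hTc : ∀ q, conj (T q) = T q := fun q => by
    simp [hT, tor, apply_ite (conj : ℂ → ℂ), Complex.conj_ofNat]
  have hMM : ∑ q, M q * conj (M q) = 85536 := by
    rw [← hX.frame]
    simp only [hM, map_sum, Finset.sum_mul_sum]
    rw [Finset.sum_comm]
    refine Finset.sum_congr rfl fun v _ => ?_
    rw [Finset.sum_comm]
    exact Finset.sum_congr rfl fun v' _ => mono_pair _ _
  have hMT : ∑ q, M q * T q = 85536 := by
    simp only [hM, Finset.sum_mul]
    rw [Finset.sum_comm]
    have h1 : ∀ v : Fin 6 × Fin 6, ∑ q, mono (X v.1 v.2) q * T q = 2376 := by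
      intro v
      simp only [Fintype.sum_prod_type, mono, hT]
      rw [tor_contract]
      simp only [conj_mul_self_of_norm (hX.unimod v.1 v.2 _)]
      have h2 : ∀ i, X v.1 v.2 i * X v.1 v.2 i * conj (X v.1 v.2 i) * conj (X v.1 v.2 i) = 1 :=
        fun i => by
          linear_combination (X v.1 v.2 i * conj (X v.1 v.2 i) + 1)
            * conj_mul_self_of_norm (hX.unimod v.1 v.2 i)
      simp only [h2]
      norm_num
    simp only [h1]
    norm_num [Fintype.card_prod]
  have hTT : ∑ q, T q * T q = 85536 := by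
    simp only [Fintype.sum_prod_type, hT, tor, ite_and]
    simp [Fin.sum_univ_six]
    norm_num
  have hz : ∑ q, (Complex.normSq (M q - T q) : ℂ) = 0 := by
    have : ∀ q, (Complex.normSq (M q - T q) : ℂ)
        = M q * conj (M q) - M q * T q - conj (M q * T q) + T q * T q := fun q => by
      rw [← Complex.mul_conj, map_sub, map_mul, hTc]; ring
    simp only [this, Finset.sum_add_distrib, Finset.sum_sub_distrib, hMM, hTT, ← map_sum, hMT,
      map_ofNat]
    ring
  have hz' : ∑ q, Complex.normSq (M q - T q) = 0 := by exact_mod_cast hz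
  have := (Finset.sum_eq_zero_iff_of_nonneg fun q _ => Complex.normSq_nonneg _).mp hz'
    (a, b, c, d) (Finset.mem_univ _)
  exact sub_eq_zero.mp (Complex.normSq_eq_zero.mp this)

/-- sum over the vectors of a product of two linear and two antilinear forms -/
lemma Complete.contract (hX : Complete X) (α β γ δ : Fin 6 → ℂ) :
    ∑ v : Fin 6 × Fin 6, (∑ i, α i * X v.1 v.2 i) * (∑ i, β i * X v.1 v.2 i)
        * (∑ i, γ i * conj (X v.1 v.2 i)) * (∑ i, δ i * conj (X v.1 v.2 i))
      = 36 * ((∑ i, α i * γ i) * (∑ i, β i * δ i) + (∑ i, α i * δ i) * (∑ i, β i * γ i)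
        - ∑ i, α i * β i * γ i * δ i) := by
  rw [← tor_contract]
  simp only [prod_four]
  rw [Finset.sum_comm]
  refine Finset.sum_congr rfl fun a _ => ?_
  rw [Finset.sum_comm]
  refine Finset.sum_congr rfl fun b _ => ?_
  rw [Finset.sum_comm]
  refine Finset.sum_congr rfl fun c _ => ?_
  rw [Finset.sum_comm]
  refine Finset.sum_congr rfl fun d _ => ?_
  rw [← hX.moment a b c d, Finset.mul_sum]
  exact Finset.sum_congr rfl fun v _ => by ring

end Vale.Agent.P355
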