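import Vale.Agent.P355.PhiDefs
import Vale.Agent.P355.Toral

/-
P355: if `Phi` is negative on all regular Hadamard matrices of order six, then there are no seven
mutually unbiased bases in dimension six.
-/

open scoped BigOperators ComplexConjugate InnerProductSpace
open Finset

namespace Vale.Agent.P355

/-- the scale factor -/
noncomputable def cst : ℂ := ((Real.sqrt 6)⁻¹ : ℝ)

lemma conj_cst : conj cst = cst := Complex.conj_ofReal _

lemma cst_mul_cst : cst * cst = 1 / 6 := by
  unfold cst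
  rw [← Complex.ofReal_mul, ← mul_inv, Real.mul_self_sqrt (by norm_num)]
  norm_num

lemma six_cst : 6 * cst = (Real.sqrt 6 : ℂ) := by
  have h := Real.mul_self_sqrt (show (0 : ℝ) ≤ 6 by norm_num)
  have h0 : Real.sqrt 6 ≠ 0 := Real.sqrt_ne_zero'.mpr (by norm_num)
  unfold cst
  rw [show (6 : ℂ) = ((6 : ℝ) : ℂ) by norm_num, ← Complex.ofReal_mul]
  congr 1
  field_simp
  linarith

/-- coefficients in the second basis -/
noncomputable def yv (H : Fin 6 → Fin 6 → ℂ) (w : Fin 6 → ℂ) (k : Fin 6) : ℂ :=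
  cst * ∑ j, conj (H j k) * w j

/-- the dephased matrix of a configuration -/
noncomputable def hmat (H : Fin 6 → Fin 6 → ℂ) (w : Fin 6 → ℂ) (l k : Fin 6) : ℂ :=
  conj (w l) * H l k * yv H w k

/-- row polynomial -/
noncomputable def qA (H : Fin 6 → Fin 6 → ℂ) (w : Fin 6 → ℂ) (l : Fin 6) : ℂ :=
  ∑ k, H l k ^ 2 * yv H w k ^ 2

/-- column polynomial -/
noncomputable def qB (H : Fin 6 → Fin 6 → ℂ) (w : Fin 6 → ℂ) (k : Fin 6) : ℂ :=
  ∑ l, H l k ^ 2 * conj (w l) ^ 2

/-- pair polynomial -/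
noncomputable def qC (H : Fin 6 → Fin 6 → ℂ) (w : Fin 6 → ℂ) (l m : Fin 6) : ℂ :=
  ∑ k, H l k ^ 2 * conj (H m k) * yv H w k

noncomputable def q1 (H : Fin 6 → Fin 6 → ℂ) (w : Fin 6 → ℂ) : ℂ :=
  ∑ l, conj (w l) ^ 2 * qA H w l

noncomputable def qR (H : Fin 6 → Fin 6 → ℂ) (w : Fin 6 → ℂ) : ℂ :=
  ∑ k, qB H w k * conj (qB H w k)

noncomputable def qR' (H : Fin 6 → Fin 6 → ℂ) (w : Fin 6 → ℂ) : ℂ :=
  ∑ l, qA H w l * conj (qA H w l)

noncomputable def qZ (H : Fin 6 → Fin 6 → ℂ) (w : Fin 6 → ℂ) : ℂ :=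
  ∑ l, ∑ k, qA H w l * qB H w k * conj (H l k ^ 2)

noncomputable def qG (H : Fin 6 → Fin 6 → ℂ) (w : Fin 6 → ℂ) : ℂ :=
  ∑ l, ∑ m, conj (w l) * conj (w m) * (qC H w l m * qC H w m l)

/-- the quartic invariant of a matrix -/
noncomputable def qN (H : Fin 6 → Fin 6 → ℂ) : ℂ :=
  ∑ k, ∑ k', (∑ l, H l k ^ 2 * conj (H l k' ^ 2)) * (∑ i, H i k' ^ 2 * conj (H i k ^ 2))

/-- the polynomial summed over the thirty vectors -/
noncomputable def qPhi (H : Fin 6 → Fin 6 → ℂ) (w : Fin 6 → ℂ) : ℂ :=
  -5 * q1 H w + 3 * ((qR H w - 36) + (qR' H w - 36) + (qN H - 216) / 15) + qZ H w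
    - 2 * (qG H w - (qN H - 216) / 5)

/-- complex Hadamard matrix -/
structure IsHad (H : Fin 6 → Fin 6 → ℂ) : Prop where
  unimod : ∀ l k, ‖H l k‖ = 1
  col : ∀ k k', ∑ l, H l k * conj (H l k') = if k = k' then 6 else 0
  row : ∀ l m, ∑ k, H l k * conj (H m k) = if l = m then 6 else 0

section Pointwise

variable {H : Fin 6 → Fin 6 → ℂ} {w : Fin 6 → ℂ}

lemma yv_unimod (hy : ∀ k, ‖∑ j, conj (H j k) * w j‖ ^ 2 = 6) (k : Fin 6) : ‖yv H w k‖ = 1 := by
  have h : ‖yv H w k‖ ^ 2 = 1 := by
    rw [yv, norm_mul, mul_pow, hy, cst, Complex.norm_real, Real.norm_eq_abs, sq_abs, inv_pow,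
      Real.sq_sqrt (by norm_num)]
    norm_num
  exact (sq_eq_one_iff.mp h).resolve_right (by linarith [norm_nonneg (yv H w k)])

lemma rowSq_hmat (l : Fin 6) : rowSq (hmat H w) l = conj (w l) ^ 2 * qA H w l := by
  simp only [rowSq, hmat, qA, Finset.mul_sum]
  exact Finset.sum_congr rfl fun k _ => by ring

lemma colSq_hmat (k : Fin 6) : colSq (hmat H w) k = yv H w k ^ 2 * qB H w k := by
  simp only [colSq, hmat, qB, Finset.mul_sum]
  exact Finset.sum_congr rfl fun k _ => by ring

lemma inM_hmat (hH : IsHad H) (hw : ∀ i, ‖w i‖ = 1)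
    (hy : ∀ k, ‖∑ j, conj (H j k) * w j‖ ^ 2 = 6) : InM (hmat H w) := by
  have hy1 := fun k => conj_mul_self_of_norm (yv_unimod hy k)
  have hw1 := fun i => conj_mul_self_of_norm (hw i)
  refine ⟨fun l k => ?_, fun l m hlm => ?_, fun k k' hkk => ?_, fun l => ?_, fun k => ?_⟩
  · rw [hmat, norm_mul, norm_mul, Complex.norm_conj, hw, hH.unimod, yv_unimod hy]; norm_num
  · have e : ∀ k, hmat H w l k * conj (hmat H w m k)
        = conj (w l) * w m * (H l k * conj (H m k)) := fun k => by
      simp only [hmat, map_mul, Complex.conj_conj]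
      linear_combination (conj (w l) * w m * (H l k * conj (H m k))) * hy1 k
    simp only [e, ← Finset.mul_sum, hH.row, if_neg hlm, mul_zero]
  · have e : ∀ l, hmat H w l k * conj (hmat H w l k')
        = yv H w k * conj (yv H w k') * (H l k * conj (H l k')) := fun l => by
      simp only [hmat, map_mul, Complex.conj_conj]
      linear_combination (yv H w k * conj (yv H w k') * (H l k * conj (H l k'))) * hw1 l
    simp only [e, ← Finset.mul_sum, hH.col, if_neg hkk, mul_zero]
  · have e : ∀ k, hmat H w l k = cst * conj (w l) * ∑ j, w j * (H l k * conj (H j k)) := fun k => by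
      simp only [hmat, yv, Finset.mul_sum]
      exact Finset.sum_congr rfl fun j _ => by ring
    simp only [e, ← Finset.mul_sum]
    rw [Finset.sum_comm]
    simp only [← Finset.mul_sum, hH.row]
    simp only [mul_ite, mul_zero, Finset.sum_ite_eq, Finset.mem_univ, if_true]
    rw [← six_cst]
    linear_combination (6 * cst) * hw1 l
  · have e : ∑ l, hmat H w l k
        = yv H w k * conj (∑ j, conj (H j k) * w j) := by
      simp only [hmat, map_sum, map_mul, Complex.conj_conj, Finset.mul_sum]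
      exact Finset.sum_congr rfl fun l _ => by ring
    have e2 : conj (∑ j, conj (H j k) * w j) = 6 * cst * conj (yv H w k) := by
      rw [yv, map_mul, conj_cst]
      linear_combination (-6 * conj (∑ j, conj (H j k) * w j)) * cst_mul_cst
    rw [e, e2, ← six_cst]
    linear_combination (6 * cst) * hy1 k

lemma termInv_hmat (hw : ∀ i, ‖w i‖ = 1) (hy : ∀ k, ‖∑ j, conj (H j k) * w j‖ ^ 2 = 6) :
    termInv (hmat H w) = termInv H := by
  unfold termInv
  refine Finset.sum_congr rfl fun l _ => Finset.sum_congr rfl fun m _ => ?_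
  congr 1
  have e : ∀ k, (hmat H w l k * conj (hmat H w m k)) ^ 2
      = (conj (w l) * w m) ^ 2 * (H l k * conj (H m k)) ^ 2 := fun k => by
    rw [← mul_pow]
    congr 1
    simp only [hmat, map_mul, Complex.conj_conj]
    linear_combination (conj (w l) * w m * (H l k * conj (H m k)))
      * conj_mul_self_of_norm (yv_unimod hy k)
  simp only [e, ← Finset.mul_sum]
  rw [Complex.normSq_mul]
  simp [Complex.normSq_eq_norm_sq, hw]

lemma phi_hmat (hw : ∀ i, ‖w i‖ = 1) (hy : ∀ k, ‖∑ j, conj (H j k) * w j‖ ^ 2 = 6)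
    (hN : ((termInv H : ℝ) : ℂ) = qN H - 216) :
    Phi (hmat H w) = (qPhi H w).re := by
  have hy1 := fun k => conj_mul_self_of_norm (yv_unimod hy k)
  have hw1 := fun i => conj_mul_self_of_norm (hw i)
  have h1 : termF (hmat H w) = (q1 H w).re := by simp only [termF, q1, rowSq_hmat]
  have h2 : termR (hmat H w) = (qR H w).re - 36 := by
    simp only [termR, qR, colSq_hmat, Complex.re_sum, Complex.mul_conj, Complex.ofReal_re,
      Complex.normSq_mul, map_pow]
    congr 1
    refine Finset.sum_congr rfl fun k _ => ?_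
    rw [Complex.normSq_eq_norm_sq (yv H w k), yv_unimod hy]
    norm_num
  have h3 : termR' (hmat H w) = (qR' H w).re - 36 := by
    simp only [termR', qR', rowSq_hmat, Complex.re_sum, Complex.mul_conj, Complex.ofReal_re,
      Complex.normSq_mul, map_pow]
    congr 1
    refine Finset.sum_congr rfl fun k _ => ?_
    rw [Complex.normSq_eq_norm_sq (conj (w k)), Complex.norm_conj, hw]
    norm_num
  have h4 : termZ (hmat H w) = (qZ H w).re := by
    simp only [termZ, qZ, rowSq_hmat, colSq_hmat]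
    congr 1
    refine Finset.sum_congr rfl fun l _ => Finset.sum_congr rfl fun k _ => ?_
    simp only [hmat, map_mul, map_pow, Complex.conj_conj]
    linear_combination (qA H w l * qB H w k * conj (H l k) ^ 2) *
      ((w l * conj (w l) + 1) * (yv H w k * conj (yv H w k)) ^ 2 * hw1 l
        + (yv H w k * conj (yv H w k) + 1) * hy1 k)
  have h5 : termG2 (hmat H w) = (qG H w).re := by
    have e : ∀ l m, pairG (hmat H w) l m = conj (w l) ^ 2 * w m * qC H w l m := fun l m => by
      simp only [pairG, qC, hmat, map_mul, Complex.conj_conj, Finset.mul_sum]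
      exact Finset.sum_congr rfl fun k _ => by
        linear_combination
          (conj (w l) ^ 2 * w m * H l k ^ 2 * conj (H m k) * yv H w k) * hy1 k
    simp only [termG2, qG, e]
    congr 1
    refine Finset.sum_congr rfl fun l _ => Finset.sum_congr rfl fun m _ => ?_
    linear_combination (conj (w l) * conj (w m) * (qC H w l m * qC H w m l)) *
      ((w m * conj (w m)) * hw1 l + hw1 m)
  have h6 : (qN H - 216).re = termInv (hmat H w) := by
    rw [← hN, Complex.ofReal_re, termInv_hmat hw hy]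
  rw [Phi, h1, h2, h3, h4, h5, ← h6]
  simp [qPhi]

end Pointwise

section Totals

variable {X : Fin 6 → Fin 6 → Fin 6 → ℂ}

lemma pick_conj (w : Fin 6 → ℂ) (l : Fin 6) :
    ∑ i, (if i = l then (1 : ℂ) else 0) * conj (w i) = conj (w l) := by simp

lemma pick (w : Fin 6 → ℂ) (l : Fin 6) :
    ∑ i, (if i = l then (1 : ℂ) else 0) * w i = w l := by simp

lemma yv_lin (H : Fin 6 → Fin 6 → ℂ) (w : Fin 6 → ℂ) (k : Fin 6) :
    ∑ i, cst * conj (H i k) * w i = yv H w k := by
  simp only [yv, Finset.mul_sum, mul_assoc]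

lemma yv_conj_lin (H : Fin 6 → Fin 6 → ℂ) (w : Fin 6 → ℂ) (k : Fin 6) :
    ∑ i, cst * H i k * conj (w i) = conj (yv H w k) := by
  simp only [yv, map_mul, conj_cst, map_sum, Complex.conj_conj, Finset.mul_sum, mul_assoc]

variable (hX : Complete X) (H : Fin 6 → Fin 6 → ℂ)
include hX

lemma mom_yw (k l m : Fin 6) (k' : Fin 6) :
    ∑ v : Fin 6 × Fin 6, yv H (X v.1 v.2) k * yv H (X v.1 v.2) k'
        * conj (X v.1 v.2 l) * conj (X v.1 v.2 m)
      = 6 * (conj (H l k) * conj (H m k') + conj (H m k) * conj (H l k')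
        - if l = m then conj (H l k) * conj (H m k') else 0) := by
  have e : ∀ v : Fin 6 × Fin 6, yv H (X v.1 v.2) k * yv H (X v.1 v.2) k'
        * conj (X v.1 v.2 l) * conj (X v.1 v.2 m)
      = (∑ i, cst * conj (H i k) * X v.1 v.2 i) * (∑ i, cst * conj (H i k') * X v.1 v.2 i)
        * (∑ i, (if i = l then (1 : ℂ) else 0) * conj (X v.1 v.2 i))
        * (∑ i, (if i = m then (1 : ℂ) else 0) * conj (X v.1 v.2 i)) := fun v => by
    rw [yv_lin, yv_lin, pick_conj, pick_conj]
  rw [Finset.sum_congr rfl fun v _ => e v, hX.contract]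
  simp only [mul_ite, mul_one, mul_zero, Finset.sum_ite_eq', Finset.mem_univ, if_true]
  by_cases hlm : l = m
  · subst hlm
    simp only [if_true]
    linear_combination (36 * conj (H l k) * conj (H l k')) * cst_mul_cst
  · simp only [if_neg hlm, if_neg (Ne.symm hlm)]
    linear_combination
      (36 * (conj (H l k) * conj (H m k') + conj (H m k) * conj (H l k'))) * cst_mul_cst

lemma mom_ww (l m : Fin 6) :
    ∑ v : Fin 6 × Fin 6, X v.1 v.2 m ^ 2 * conj (X v.1 v.2 l) ^ 2 = if l = m then 36 else 0 := by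
  have e : ∀ v : Fin 6 × Fin 6, X v.1 v.2 m ^ 2 * conj (X v.1 v.2 l) ^ 2
      = X v.1 v.2 m * X v.1 v.2 m * conj (X v.1 v.2 l) * conj (X v.1 v.2 l) := fun v => by ring
  simp only [e, hX.moment, tor]
  by_cases h : l = m
  · subst h; simp
  · have h' : ¬ m = l := fun e => h e.symm
    simp [h, h']

lemma mom_yy (hH : IsHad H) (k k' : Fin 6) :
    ∑ v : Fin 6 × Fin 6, yv H (X v.1 v.2) k ^ 2 * conj (yv H (X v.1 v.2) k') ^ 2
      = (if k = k' then 72 else 0) - ∑ i, H i k' ^ 2 * conj (H i k ^ 2) := by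
  have e : ∀ v : Fin 6 × Fin 6, yv H (X v.1 v.2) k ^ 2 * conj (yv H (X v.1 v.2) k') ^ 2
      = (∑ i, cst * conj (H i k) * X v.1 v.2 i) * (∑ i, cst * conj (H i k) * X v.1 v.2 i)
        * (∑ i, cst * H i k' * conj (X v.1 v.2 i)) * (∑ i, cst * H i k' * conj (X v.1 v.2 i)) :=
    fun v => by rw [yv_lin, yv_conj_lin]; ring
  rw [Finset.sum_congr rfl fun v _ => e v, hX.contract]
  have e1 : ∑ i, cst * conj (H i k) * (cst * H i k') = if k = k' then 1 else 0 := by
    have : ∀ i, cst * conj (H i k) * (cst * H i k') = (1 / 6) * (H i k' * conj (H i k)) :=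
      fun i => by rw [← cst_mul_cst]; ring
    simp only [this, ← Finset.mul_sum, hH.col]
    by_cases h : k = k'
    · subst h; norm_num
    · rw [if_neg h, if_neg (Ne.symm h), mul_zero]
  have e2 : ∑ i, cst * conj (H i k) * (cst * conj (H i k)) * (cst * H i k') * (cst * H i k')
      = (1 / 36) * ∑ i, H i k' ^ 2 * conj (H i k ^ 2) := by
    rw [Finset.mul_sum]
    refine Finset.sum_congr rfl fun i _ => ?_
    rw [map_pow]
    linear_combination (conj (H i k) ^ 2 * H i k' ^ 2 * (cst * cst + 1 / 6)) * cst_mul_cst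
  rw [e1, e2]
  split_ifs <;> ring

lemma total_q1 (hH : IsHad H) : ∑ v : Fin 6 × Fin 6, q1 H (X v.1 v.2) = 216 := by
  simp only [q1, qA, Finset.mul_sum]
  rw [Finset.sum_comm]
  have e : ∀ l, ∑ v : Fin 6 × Fin 6, ∑ k,
      conj (X v.1 v.2 l) ^ 2 * (H l k ^ 2 * yv H (X v.1 v.2) k ^ 2) = 36 := by
    intro l
    rw [Finset.sum_comm]
    have e2 : ∀ k, ∑ v : Fin 6 × Fin 6,
        conj (X v.1 v.2 l) ^ 2 * (H l k ^ 2 * yv H (X v.1 v.2) k ^ 2) = 6 := by
      intro k
      calc _ = H l k ^ 2 * ∑ v : Fin 6 × Fin 6, yv H (X v.1 v.2) k * yv H (X v.1 v.2) k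
            * conj (X v.1 v.2 l) * conj (X v.1 v.2 l) := by
            rw [Finset.mul_sum]; exact Finset.sum_congr rfl fun v _ => by ring
        _ = 6 := by
            rw [mom_yw hX H, if_pos rfl]
            linear_combination (6 * (H l k * conj (H l k) + 1))
              * conj_mul_self_of_norm (hH.unimod l k)
    simp only [e2]; norm_num
  simp only [e]; norm_num

lemma total_qR (hH : IsHad H) : ∑ v : Fin 6 × Fin 6, qR H (X v.1 v.2) = 1296 := by
  simp only [qR, qB, map_sum, Finset.sum_mul_sum]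
  rw [Finset.sum_comm]
  have e : ∀ k, ∑ v : Fin 6 × Fin 6, ∑ l, ∑ m, H l k ^ 2 * conj (X v.1 v.2 l) ^ 2
      * conj (H m k ^ 2 * conj (X v.1 v.2 m) ^ 2) = 216 := by
    intro k
    rw [Finset.sum_comm]
    have e2 : ∀ l, ∑ v : Fin 6 × Fin 6, ∑ m, H l k ^ 2 * conj (X v.1 v.2 l) ^ 2
        * conj (H m k ^ 2 * conj (X v.1 v.2 m) ^ 2) = 36 := by
      intro l
      rw [Finset.sum_comm]
      have e3 : ∀ m, ∑ v : Fin 6 × Fin 6, H l k ^ 2 * conj (X v.1 v.2 l) ^ 2
          * conj (H m k ^ 2 * conj (X v.1 v.2 m) ^ 2)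
          = H l k ^ 2 * conj (H m k) ^ 2 * if l = m then 36 else 0 := by
        intro m
        rw [← mom_ww hX l m, Finset.mul_sum]
        exact Finset.sum_congr rfl fun v _ => by
          simp only [map_mul, map_pow, Complex.conj_conj]; ring
      simp only [e3, mul_ite, mul_zero, Finset.sum_ite_eq, Finset.mem_univ, if_true]
      linear_combination (36 * (H l k * conj (H l k) + 1))
        * conj_mul_self_of_norm (hH.unimod l k)
    simp only [e2]; norm_num
  simp only [e]; norm_num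

lemma total_qR' (hH : IsHad H) : ∑ v : Fin 6 × Fin 6, qR' H (X v.1 v.2) = 2592 - qN H := by
  simp only [qR', qA, map_sum, Finset.sum_mul_sum]
  rw [Finset.sum_comm]
  have e : ∀ l, ∑ v : Fin 6 × Fin 6, ∑ k, ∑ k', H l k ^ 2 * yv H (X v.1 v.2) k ^ 2
      * conj (H l k' ^ 2 * yv H (X v.1 v.2) k' ^ 2)
      = 432 - ∑ k, ∑ k', H l k ^ 2 * conj (H l k' ^ 2) * ∑ i, H i k' ^ 2 * conj (H i k ^ 2) := by
    intro l
    rw [Finset.sum_comm]
    have e2 : ∀ k, ∑ v : Fin 6 × Fin 6, ∑ k', H l k ^ 2 * yv H (X v.1 v.2) k ^ 2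
        * conj (H l k' ^ 2 * yv H (X v.1 v.2) k' ^ 2)
        = 72 - ∑ k', H l k ^ 2 * conj (H l k' ^ 2) * ∑ i, H i k' ^ 2 * conj (H i k ^ 2) := by
      intro k
      rw [Finset.sum_comm]
      have e3 : ∀ k', ∑ v : Fin 6 × Fin 6, H l k ^ 2 * yv H (X v.1 v.2) k ^ 2
          * conj (H l k' ^ 2 * yv H (X v.1 v.2) k' ^ 2)
          = H l k ^ 2 * conj (H l k' ^ 2)
            * ((if k = k' then 72 else 0) - ∑ i, H i k' ^ 2 * conj (H i k ^ 2)) := by
        intro k'
        rw [← mom_yy hX H hH k k', Finset.mul_sum]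
        exact Finset.sum_congr rfl fun v _ => by simp only [map_mul, map_pow]; ring
      simp only [e3, mul_sub, Finset.sum_sub_distrib, mul_ite, mul_zero, Finset.sum_ite_eq,
        Finset.mem_univ, if_true]
      rw [map_pow]
      linear_combination (72 * (H l k * conj (H l k) + 1))
        * conj_mul_self_of_norm (hH.unimod l k)
    simp only [e2, Finset.sum_sub_distrib]; norm_num
  simp only [e, Finset.sum_sub_distrib, qN]
  congr 1
  · norm_num
  · rw [Finset.sum_comm]
    refine Finset.sum_congr rfl fun k _ => ?_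
    rw [Finset.sum_comm]
    exact Finset.sum_congr rfl fun k' _ => by rw [Finset.sum_mul]

lemma total_qZ : ∑ v : Fin 6 × Fin 6, qZ H (X v.1 v.2) = 6 * qN H := by
  have e : ∀ v : Fin 6 × Fin 6, qZ H (X v.1 v.2) = ∑ k, ∑ k', ∑ l, ∑ m,
      H l k' ^ 2 * conj (H l k ^ 2) * H m k ^ 2 * (yv H (X v.1 v.2) k' * yv H (X v.1 v.2) k'
        * conj (X v.1 v.2 m) * conj (X v.1 v.2 m)) := by
    intro v
    simp only [qZ, qA, qB, Finset.sum_mul_sum]
    rw [Finset.sum_comm]
    refine Finset.sum_congr rfl fun k _ => ?_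
    simp only [Finset.sum_mul]
    rw [Finset.sum_comm]
    exact Finset.sum_congr rfl fun k' _ => Finset.sum_congr rfl fun l _ =>
      Finset.sum_congr rfl fun m _ => by ring
  simp only [e]
  rw [Finset.sum_comm, qN, Finset.mul_sum]
  refine Finset.sum_congr rfl fun k _ => ?_
  rw [Finset.sum_comm, Finset.mul_sum]
  refine Finset.sum_congr rfl fun k' _ => ?_
  rw [Finset.sum_comm, mul_comm (∑ l, H l k ^ 2 * conj (H l k' ^ 2)), Finset.sum_mul_sum,
    Finset.mul_sum]
  refine Finset.sum_congr rfl fun l _ => ?_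
  rw [Finset.sum_comm, Finset.mul_sum]
  refine Finset.sum_congr rfl fun m _ => ?_
  rw [← Finset.mul_sum, mom_yw hX H, if_pos rfl, map_pow, map_pow]
  ring

lemma total_qG (hH : IsHad H) : ∑ v : Fin 6 × Fin 6, qG H (X v.1 v.2) = 6 * qN H := by
  have e : ∀ v : Fin 6 × Fin 6, qG H (X v.1 v.2) = ∑ l, ∑ m, ∑ k, ∑ k',
      H l k ^ 2 * conj (H m k) * (H m k' ^ 2 * conj (H l k')) * (yv H (X v.1 v.2) k
        * yv H (X v.1 v.2) k' * conj (X v.1 v.2 l) * conj (X v.1 v.2 m)) := by
    intro v
    simp only [qG, qC]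
    refine Finset.sum_congr rfl fun l _ => Finset.sum_congr rfl fun m _ => ?_
    rw [Finset.sum_mul_sum, Finset.mul_sum]
    refine Finset.sum_congr rfl fun k _ => ?_
    rw [Finset.mul_sum]
    exact Finset.sum_congr rfl fun k' _ => by ring
  simp only [e]
  rw [Finset.sum_comm]
  have e2 : ∀ l m, ∑ v : Fin 6 × Fin 6, ∑ k, ∑ k',
      H l k ^ 2 * conj (H m k) * (H m k' ^ 2 * conj (H l k')) * (yv H (X v.1 v.2) k
        * yv H (X v.1 v.2) k' * conj (X v.1 v.2 l) * conj (X v.1 v.2 m))
      = 6 * ((∑ k, H l k ^ 2 * conj (H m k) ^ 2) * ∑ k', H m k' ^ 2 * conj (H l k') ^ 2) := by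
    intro l m
    have a1 : (∑ k, H l k * conj (H m k)) * ∑ k', H m k' * conj (H l k')
        = if l = m then 36 else 0 := by
      rw [hH.row, hH.row]
      by_cases h : l = m
      · subst h; norm_num
      · rw [if_neg h, if_neg h, zero_mul]
    calc ∑ v : Fin 6 × Fin 6, ∑ k, ∑ k', _
        = ∑ k, ∑ k', H l k ^ 2 * conj (H m k) * (H m k' ^ 2 * conj (H l k'))
          * (6 * (conj (H l k) * conj (H m k') + conj (H m k) * conj (H l k')
            - if l = m then conj (H l k) * conj (H m k') else 0)) := by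
          rw [Finset.sum_comm]
          refine Finset.sum_congr rfl fun k _ => ?_
          rw [Finset.sum_comm]
          exact Finset.sum_congr rfl fun k' _ => by rw [← Finset.mul_sum, mom_yw hX H]
      _ = ∑ k, ∑ k', (6 * ((H l k * conj (H m k)) * (H m k' * conj (H l k')))
            + 6 * ((H l k ^ 2 * conj (H m k) ^ 2) * (H m k' ^ 2 * conj (H l k') ^ 2))
            - if l = m then 6 * ((H l k * conj (H m k)) * (H m k' * conj (H l k'))) else 0) := by
          refine Finset.sum_congr rfl fun k _ => Finset.sum_congr rfl fun k' _ => ?_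
          have u1 := conj_mul_self_of_norm (hH.unimod l k)
          have u2 := conj_mul_self_of_norm (hH.unimod m k')
          split_ifs with h
          · ring
          · linear_combination (6 * (H l k * conj (H m k)) * (H m k' * conj (H l k')))
              * ((H m k' * conj (H m k')) * u1 + u2)
      _ = _ := by
          simp only [Finset.sum_add_distrib, Finset.sum_sub_distrib, Finset.sum_ite_irrel,
            Finset.sum_const_zero, ← Finset.mul_sum, ← Finset.sum_mul, a1]
          split_ifs <;> ring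
  rw [Finset.sum_congr rfl fun l _ => Finset.sum_comm]
  simp only [e2, ← Finset.mul_sum]
  congr 1
  simp only [qN, Finset.sum_mul_sum, map_pow]
  calc ∑ l, ∑ m, ∑ k, ∑ k', H l k ^ 2 * conj (H m k) ^ 2 * (H m k' ^ 2 * conj (H l k') ^ 2)
      = ∑ l, ∑ k, ∑ m, ∑ k', H l k ^ 2 * conj (H m k) ^ 2 * (H m k' ^ 2 * conj (H l k') ^ 2) :=
        Finset.sum_congr rfl fun l _ => Finset.sum_comm
    _ = ∑ k, ∑ l, ∑ k', ∑ m, H l k ^ 2 * conj (H m k) ^ 2 * (H m k' ^ 2 * conj (H l k') ^ 2) := by
        rw [Finset.sum_comm]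
        exact Finset.sum_congr rfl fun k _ => Finset.sum_congr rfl fun l _ => Finset.sum_comm
    _ = _ := by
        refine Finset.sum_congr rfl fun k _ => ?_
        rw [Finset.sum_comm]
        exact Finset.sum_congr rfl fun k' _ => Finset.sum_congr rfl fun l _ =>
          Finset.sum_congr rfl fun m _ => by ring

end Totals

section Columns

variable {H : Fin 6 → Fin 6 → ℂ}

lemma yv_col (hH : IsHad H) (k k0 : Fin 6) :
    yv H (fun l => H l k0) k = if k = k0 then 6 * cst else 0 := by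
  have e : ∑ j, conj (H j k) * H j k0 = ∑ j, H j k0 * conj (H j k) :=
    Finset.sum_congr rfl fun j _ => mul_comm _ _
  rw [yv, e, hH.col]
  by_cases h : k = k0
  · subst h; rw [if_pos rfl, if_pos rfl, mul_comm]
  · rw [if_neg (Ne.symm h), if_neg h, mul_zero]

lemma qA_col (hH : IsHad H) (l k0 : Fin 6) : qA H (fun i => H i k0) l = 6 * H l k0 ^ 2 := by
  simp only [qA, yv_col hH, ite_pow, zero_pow two_ne_zero, mul_ite, mul_zero, Finset.sum_ite_eq',
    Finset.mem_univ, if_true]
  linear_combination (36 * H l k0 ^ 2) * cst_mul_cst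

lemma qC_col (hH : IsHad H) (l m k0 : Fin 6) :
    qC H (fun i => H i k0) l m = 6 * cst * (H l k0 ^ 2 * conj (H m k0)) := by
  simp only [qC, yv_col hH, mul_ite, mul_zero, Finset.sum_ite_eq', Finset.mem_univ, if_true]
  ring

lemma col_q1 (hH : IsHad H) : ∑ k0, q1 H (fun i => H i k0) = 216 := by
  have e : ∀ k0 l, conj (H l k0) ^ 2 * (6 * H l k0 ^ 2) = 6 := fun k0 l => by
    linear_combination (6 * (H l k0 * conj (H l k0) + 1)) * conj_mul_self_of_norm (hH.unimod l k0)
  simp only [q1, qA_col hH, e]; norm_num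

lemma col_qR : ∑ k0, qR H (fun i => H i k0) = qN H := by
  simp only [qR, qB, qN, map_sum, map_mul, map_pow, Complex.conj_conj]
  rw [Finset.sum_comm]
  refine Finset.sum_congr rfl fun k _ => Finset.sum_congr rfl fun k0 _ => ?_
  congr 1
  exact Finset.sum_congr rfl fun i _ => by ring

lemma col_qR' (hH : IsHad H) : ∑ k0, qR' H (fun i => H i k0) = 1296 := by
  have e : ∀ k0 l, 6 * H l k0 ^ 2 * conj (6 * H l k0 ^ 2) = 36 := fun k0 l => by
    rw [map_mul, map_pow, map_ofNat]
    linear_combination (36 * (H l k0 * conj (H l k0) + 1)) * conj_mul_self_of_norm (hH.unimod l k0)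
  simp only [qR', qA_col hH, e]; norm_num

lemma col_qZ (hH : IsHad H) : ∑ k0, qZ H (fun i => H i k0) = 6 * qN H := by
  simp only [qZ, qA_col hH, qB, qN, map_pow]
  rw [Finset.mul_sum]
  calc ∑ k0, ∑ l, ∑ k, 6 * H l k0 ^ 2 * (∑ m, H m k ^ 2 * conj (H m k0) ^ 2) * conj (H l k) ^ 2
      = ∑ k0, ∑ k, ∑ l, 6 * H l k0 ^ 2 * (∑ m, H m k ^ 2 * conj (H m k0) ^ 2) * conj (H l k) ^ 2 :=
        Finset.sum_congr rfl fun _ _ => Finset.sum_comm
    _ = _ := by
        refine Finset.sum_congr rfl fun k0 _ => ?_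
        rw [Finset.mul_sum]
        refine Finset.sum_congr rfl fun k _ => ?_
        rw [Finset.sum_mul, Finset.mul_sum]
        exact Finset.sum_congr rfl fun l _ => by ring

lemma col_qG (hH : IsHad H) : ∑ k0, qG H (fun i => H i k0) = 1296 := by
  have e : ∀ k0 l m, conj (H l k0) * conj (H m k0) * (6 * cst * (H l k0 ^ 2 * conj (H m k0))
      * (6 * cst * (H m k0 ^ 2 * conj (H l k0)))) = 6 := fun k0 l m => by
    have u1 := conj_mul_self_of_norm (hH.unimod l k0)
    have u2 := conj_mul_self_of_norm (hH.unimod m k0)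
    linear_combination 36 * (H l k0 * conj (H l k0)) ^ 2 * (H m k0 * conj (H m k0)) ^ 2
        * cst_mul_cst
      + 6 * (H m k0 * conj (H m k0)) ^ 2 * (H l k0 * conj (H l k0) + 1) * u1
      + 6 * (H m k0 * conj (H m k0) + 1) * u2
  simp only [qG, qC_col hH, e]; norm_num

end Columns

/-- the reduction, in coordinates, with the inequality needed only at the thirty dephased
matrices -/
theorem not_complete_of_phi_neg_local
    {X : Fin 6 → Fin 6 → Fin 6 → ℂ} (hX : Complete X)
    (hPhi : ∀ (q : Fin 5) (a : Fin 6), InM (hmat (fun l k => X 0 k l) (X q.succ a)) →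
      Phi (hmat (fun l k => X 0 k l) (X q.succ a)) < 0) : False := by
  set H : Fin 6 → Fin 6 → ℂ := fun l k => X 0 k l with hHdef
  have hcol : ∀ k k', ∑ l, H l k * conj (H l k') = if k = k' then 6 else 0 := by
    intro k k'
    split_ifs with h
    · subst h
      simp [hHdef, conj_mul_self_of_norm (hX.unimod 0 k _)]
    · exact hX.orth 0 k k' h
  have hrow : ∀ l m, ∑ k, H l k * conj (H m k) = if l = m then 6 else 0 := by
    set U : Matrix (Fin 6) (Fin 6) ℂ := Matrix.of fun l k => cst * H l k with hU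
    have h1 : U.conjTranspose * U = 1 := by
      ext k k'
      rw [Matrix.mul_apply, Matrix.one_apply]
      have : ∀ l, U.conjTranspose k l * U l k' = (1 / 6) * (H l k' * conj (H l k)) := fun l => by
        simp only [hU, Matrix.conjTranspose_apply, Matrix.of_apply, RCLike.star_def, map_mul,
          conj_cst]
        linear_combination (H l k' * conj (H l k)) * cst_mul_cst
      simp only [this, ← Finset.mul_sum, hcol]
      by_cases h : k = k'
      · subst h; norm_num
      · rw [if_neg h, if_neg (Ne.symm h), mul_zero]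
    have h2 := mul_eq_one_comm.mp h1
    intro l m
    have h3 := congrFun (congrFun h2 l) m
    rw [Matrix.mul_apply, Matrix.one_apply] at h3
    have : ∀ k, U l k * U.conjTranspose k m = (1 / 6) * (H l k * conj (H m k)) := fun k => by
      simp only [hU, Matrix.conjTranspose_apply, Matrix.of_apply, RCLike.star_def, map_mul,
        conj_cst]
      linear_combination (H l k * conj (H m k)) * cst_mul_cst
    simp only [this, ← Finset.mul_sum] at h3
    split_ifs with h
    · rw [if_pos h] at h3; linear_combination 6 * h3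
    · rw [if_neg h] at h3; linear_combination 6 * h3
  have hH : IsHad H := ⟨fun l k => hX.unimod 0 k l, hcol, hrow⟩
  have hN : ((termInv H : ℝ) : ℂ) = qN H - 216 := by
    have e : ∀ l m, (((if l = m then 0 else Complex.normSq (∑ k, (H l k * conj (H m k)) ^ 2)) : ℝ)
        : ℂ) = (∑ k, H l k ^ 2 * conj (H m k) ^ 2) * (∑ k, H m k ^ 2 * conj (H l k) ^ 2)
          - if l = m then 36 else 0 := by
      intro l m
      split_ifs with h
      · subst h
        have : ∀ k, H l k ^ 2 * conj (H l k) ^ 2 = 1 := fun k => by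
          linear_combination (H l k * conj (H l k) + 1) * conj_mul_self_of_norm (hH.unimod l k)
        simp only [this]; norm_num
      · rw [sub_zero, ← Complex.mul_conj]
        simp only [mul_pow, map_sum, map_mul, map_pow, Complex.conj_conj]
        congr 1
        exact Finset.sum_congr rfl fun k _ => by ring
    simp only [termInv, Complex.ofReal_sum, e, Finset.sum_sub_distrib, Finset.sum_ite_eq,
      Finset.mem_univ, if_true]
    congr 1
    · simp only [qN, map_pow, Finset.sum_mul_sum]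
      calc ∑ l, ∑ m, ∑ k, ∑ k', H l k ^ 2 * conj (H m k) ^ 2 * (H m k' ^ 2 * conj (H l k') ^ 2)
          = ∑ l, ∑ k, ∑ m, ∑ k', H l k ^ 2 * conj (H m k) ^ 2
              * (H m k' ^ 2 * conj (H l k') ^ 2) :=
            Finset.sum_congr rfl fun l _ => Finset.sum_comm
        _ = ∑ k, ∑ l, ∑ k', ∑ m, H l k ^ 2 * conj (H m k) ^ 2
              * (H m k' ^ 2 * conj (H l k') ^ 2) := by
            rw [Finset.sum_comm]
            exact Finset.sum_congr rfl fun k _ => Finset.sum_congr rfl fun l _ => Finset.sum_comm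
        _ = _ := by
            refine Finset.sum_congr rfl fun k _ => ?_
            rw [Finset.sum_comm]
            exact Finset.sum_congr rfl fun k' _ => Finset.sum_congr rfl fun l _ =>
              Finset.sum_congr rfl fun m _ => by ring
    · norm_num
  have hy : ∀ (q : Fin 5) (a k : Fin 6), ‖∑ j, conj (H j k) * X q.succ a j‖ ^ 2 = 6 := by
    intro q a k
    rw [← hX.unbiased q.succ 0 a k (Fin.succ_ne_zero q)]
    congr 2
    exact Finset.sum_congr rfl fun j _ => mul_comm _ _
  have hzero : ∑ q : Fin 5, ∑ a : Fin 6, qPhi H (X q.succ a) = 0 := by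
    have hsplit : ∀ f : (Fin 6 → ℂ) → ℂ, ∑ q : Fin 5, ∑ a : Fin 6, f (X q.succ a)
        = (∑ v : Fin 6 × Fin 6, f (X v.1 v.2)) - ∑ a, f (fun l => H l a) := by
      intro f
      rw [Fintype.sum_prod_type, Fin.sum_univ_succ (fun p : Fin 6 => ∑ a, f (X p a))]
      simp only [hHdef]
      ring
    simp only [qPhi, Finset.sum_add_distrib, Finset.sum_sub_distrib, ← Finset.mul_sum,
      hsplit (q1 H), hsplit (qR H), hsplit (qR' H), hsplit (qZ H), hsplit (qG H),
      total_q1 hX H hH, total_qR hX H hH, total_qR' hX H hH, total_qZ hX H, total_qG hX H hH,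
      col_q1 hH, col_qR, col_qR' hH, col_qZ hH, col_qG hH, Finset.sum_const, Finset.card_univ,
      Fintype.card_fin, nsmul_eq_mul]
    ring
  have hsum : ∑ q : Fin 5, ∑ a : Fin 6, Phi (hmat H (X q.succ a)) = 0 := by
    simp only [phi_hmat (fun i => hX.unimod _ _ i) (hy _ _) hN, ← Complex.re_sum, hzero,
      Complex.zero_re]
  have hneg : ∑ q : Fin 5, ∑ a : Fin 6, Phi (hmat H (X q.succ a)) < 0 :=
    Finset.sum_neg (fun q _ => Finset.sum_neg (fun a _ =>
      hPhi q a (inM_hmat hH (fun i => hX.unimod _ _ i) (hy q a))) Finset.univ_nonempty)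
      Finset.univ_nonempty
  linarith

/-- the reduction, in coordinates -/
theorem not_complete_of_phi_neg (hPhi : ∀ h, InM h → Phi h < 0)
    {X : Fin 6 → Fin 6 → Fin 6 → ℂ} (hX : Complete X) : False :=
  not_complete_of_phi_neg_local hX fun _ _ => hPhi _

/-- seven pairwise unbiased bases give six complete coordinate systems -/
theorem no_seven_of_phi_neg (hPhi : ∀ h, InM h → Phi h < 0)
    (B : Fin 7 → OrthonormalBasis (Fin 6) ℂ (EuclideanSpace ℂ (Fin 6)))
    (hB : ∀ p q, p ≠ q → ∀ a b, ‖⟪B p a, B q b⟫_ℂ‖ ^ 2 = 1 / 6) : False := by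
  set X : Fin 6 → Fin 6 → Fin 6 → ℂ :=
    fun p a i => (Real.sqrt 6 : ℂ) * ⟪B 0 i, B p.succ a⟫_ℂ with hXdef
  have h6 : (Real.sqrt 6 : ℂ) * (Real.sqrt 6 : ℂ) = 6 := by
    rw [← Complex.ofReal_mul, Real.mul_self_sqrt (by norm_num)]; norm_num
  have key : ∀ p q a b, ∑ i, X p a i * conj (X q b i) = 6 * ⟪B q.succ b, B p.succ a⟫_ℂ := by
    intro p q a b
    rw [← (B 0).sum_inner_mul_inner, Finset.mul_sum]
    refine Finset.sum_congr rfl fun i _ => ?_
    simp only [hXdef, map_mul, Complex.conj_ofReal, inner_conj_symm]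
    linear_combination (⟪B 0 i, B p.succ a⟫_ℂ * ⟪B q.succ b, B 0 i⟫_ℂ) * h6
  have hX : Complete X := by
    refine ⟨fun p a i => ?_, fun p a b hab => ?_, fun p q a b hpq => ?_⟩
    · have h := hB 0 p.succ (Fin.succ_ne_zero p).symm i a
      have h1 : ‖X p a i‖ ^ 2 = 1 := by
        simp only [hXdef, norm_mul, mul_pow, h, Complex.norm_real, Real.norm_eq_abs, sq_abs]
        rw [Real.sq_sqrt (by norm_num)]; norm_num
      exact (sq_eq_one_iff.mp h1).resolve_right (by linarith [norm_nonneg (X p a i)])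
    · rw [key, (B p.succ).inner_eq_ite, if_neg (Ne.symm hab), mul_zero]
    · rw [key, norm_mul, mul_pow, hB q.succ p.succ (fun e => hpq (Fin.succ_injective _ e).symm) b a]
      norm_num
  exact not_complete_of_phi_neg hPhi hX

end Vale.Agent.P355
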